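import Vale.Agent.P354CB.Ez

/-!
The glued spacetime is a development: the slice, its embedding, connectedness, the induced data.
-/

open scoped ContDiff
open Set Filter Topology

namespace Vale.Agent.P354CB34

open Vale.Agent.P354n
open Vale.Agent.P354I (X Dat IsDev pd)
open Vale.Agent.P354J (PDy)
open Vale.Agent.P354XE (Tw)
open Vale.Agent.P354YC (IndAt)
open Vale.Agent.P354CB

/-- The slice of a glued spacetime is a Cauchy surface. -/
def CAU : Prop := ∀ d, PDy d → ∀ (ι : Type) (A : ι → LD d) N κ, Gl A N κ →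
  GH0 N (⋃ i, κ i '' (A i).S)

theorem ind_congr {g : Tw} {Xf : R4 → R4} {J J' : X → R4} {d : Dat} {y : X}
    (h : IndAt g Xf J d y) (k : J' =ᶠ[𝓝 y] J) : IndAt g Xf J' d y := by
  have e1 : ∀ i, pd i J' =ᶠ[𝓝 y] pd i J := fun i =>
    k.fderiv.mono fun z hz => by simp only [pd]; rw [hz]
  have e2 : ∀ i l, pd i (pd l J') y = pd i (pd l J) y := fun i l => by
    show fderiv ℝ (pd l J') y _ = fderiv ℝ (pd l J) y _
    rw [(e1 l).fderiv_eq]
  have e3 : ∀ i, pd i J' y = pd i J y := fun i => (e1 i).eq_of_nhds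
  unfold IndAt
  simp only [e2, e3, k.eq_of_nhds]
  exact h

theorem con_x : IsPreconnected ({0}ᶜ : Set X) :=
  (isConnected_compl_singleton_of_one_lt_rank (by
    rw [← Module.finrank_eq_rank, finrank_euclideanSpace_fin]; norm_num) 0).isPreconnected

variable {d : Dat} {ι : Type} {A : ι → LD d} {N : Spc} {κ : ∀ i, (A i).N.pt → N.pt}
  {j : X → N.pt}

/-- The slices fit together. -/
theorem ex_j (hB : BASE) (hd : PDy d) (G : Gl A N κ) (hc : ∀ y ≠ 0, ∃ i, y ∈ (A i).O) :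
    ∃ j : X → N.pt, ∀ i, ∀ y ∈ (A i).O, κ i ((A i).j y) = j y := by
  obtain ⟨i0, -⟩ := hc _ (exists_ne (0 : X)).choose_spec
  have : ∀ y : X, ∃ p : N.pt, ∀ i, y ∈ (A i).O → κ i ((A i).j y) = p := fun y => by
    by_cases h : ∃ k, y ∈ (A k).O
    · obtain ⟨k, hk⟩ := h
      exact ⟨_, fun i hi => (G.eq i k _ _).2 (hB d hd _ _ y hi hk)⟩
    · exact ⟨κ i0 ((A i0).j y), fun i hi => (h ⟨i, hi⟩).elim⟩
  choose j hj using this
  exact ⟨j, fun i y hy => hj y i hy⟩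

variable (G : Gl A N κ) (hj : ∀ i, ∀ y ∈ (A i).O, κ i ((A i).j y) = j y)
include G hj

/-- A point of the slice in the range of a piece lies on the slice of the piece. -/
theorem back {i k : ι} {y : X} (hy : y ∈ (A k).O) {x : (A i).N.pt} (h : κ i x = j y) :
    y ∈ (A i).O ∧ (A i).j y = x := by
  obtain ⟨U, ψ, C, m, e⟩ := (G.eq k i _ _).1 ((hj k y hy).trans h.symm)
  exact ⟨(C.sl y hy m).1, (C.sl y hy m).2.symm.trans e⟩

omit G in
theorem near {i : ι} {y : X} (hy : y ∈ (A i).O) : j =ᶠ[𝓝 y] fun z => κ i ((A i).j z) :=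
  mem_of_superset ((A i).h.op.mem_nhds hy) fun z hz => (hj i z hz).symm

theorem cont {i : ι} {y : X} (hy : y ∈ (A i).O) : ContinuousAt j y :=
  (((G.emb i).continuous.continuousAt).comp ((A i).h.cont hy)).congr (near hj hy).symm

variable (hc : ∀ y ≠ 0, ∃ i, y ∈ (A i).O)
include hc

omit G in
theorem img : j '' {0}ᶜ = ⋃ i, κ i '' (A i).S := by
  ext p
  simp only [mem_iUnion]
  constructor
  · rintro ⟨y, hy, rfl⟩
    obtain ⟨i, hi⟩ := hc y hy
    exact ⟨i, _, ⟨y, hi, rfl⟩, hj i y hi⟩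
  · rintro ⟨i, _, ⟨y, hi, rfl⟩, rfl⟩
    exact ⟨y, (A i).h.nz hi, (hj i y hi).symm⟩

theorem cont_on : ContinuousOn j {0}ᶜ := fun y hy =>
  (hc y hy).elim fun _ hi => (cont G hj hi).continuousWithinAt

theorem emb : IsEmbedding fun y : ({0}ᶜ : Set X) => j y := by
  refine ⟨isInducing_iff_nhds.2 fun y => le_antisymm ?_ ?_, fun y z e => ?_⟩
  · exact (continuousOn_iff_continuous_domRestrict.1 (cont_on G hj hc)).continuousAt.le_comap
  · obtain ⟨i, hi⟩ := hc y y.2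
    intro V hV
    obtain ⟨V', h1, h2⟩ := (mem_nhds_subtype _ _ _).1 hV
    have h3 : Subtype.val ⁻¹' V' ∈ 𝓝 (⟨y, hi⟩ : (A i).O) :=
      continuous_subtype_val.continuousAt.preimage_mem_nhds h1
    rw [(A i).h.emb.isInducing.nhds_eq_comap] at h3
    obtain ⟨W, h4, h5⟩ := h3
    refine ⟨κ i '' W, ?_, fun z hz => h2 ?_⟩
    · rw [← hj i y hi]
      exact (G.emb i).isOpenMap.image_mem_nhds h4
    · obtain ⟨x, hx, e⟩ := hz
      obtain ⟨k, hk⟩ := hc z z.2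
      obtain ⟨m, rfl⟩ := back G hj hk e
      exact h5 (a := ⟨z, m⟩) hx
  · obtain ⟨i, hi⟩ := hc y y.2
    obtain ⟨k, hk⟩ := hc z z.2
    obtain ⟨m, n⟩ := back G hj hk ((hj i y hi).trans e)
    exact Subtype.ext ((A i).h.inj hi m n.symm)

theorem conn (L : L2) (hd : PDy d) : ConnectedSpace N.pt := by
  obtain ⟨y0, h0⟩ := exists_ne (0 : X)
  have hS : IsPreconnected (j '' {0}ᶜ) := con_x.image j (cont_on G hj hc)
  refine connectedSpace_iff_univ.2 ⟨⟨j y0, trivial⟩, isPreconnected_of_forall (j y0) fun p _ => ?_⟩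
  obtain ⟨i, x, rfl⟩ := G.cover p
  obtain ⟨_, ⟨y, hy, rfl⟩, C, -, c1, c2, c3⟩ :=
    (L.g3 _ _ (L.ac d _ _ _ hd (A i).h)).con univ Hull.univ x trivial
  refine ⟨j '' {0}ᶜ ∪ κ i '' C, subset_univ _, .inl ⟨y0, h0, rfl⟩, .inr ⟨x, c2, rfl⟩, ?_⟩
  exact hS.union (j y) ⟨y, (A i).h.nz hy, rfl⟩ ⟨_, c3, hj i y hy⟩
    (c1.image _ (G.emb i).continuous.continuousOn)

theorem ind (K1 : LK1) (K2 : LK2) {y : X} (hy : y ≠ 0) {e' : N.Chart} (he : On e' (j y)) :
    ContDiffAt ℝ ∞ (fun z => co e' (j z)) y ∧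
      IndAt (N.g e') (N.X e') (fun z => co e' (j z)) d y := by
  obtain ⟨i, hi⟩ := hc y hy
  obtain ⟨e, h⟩ := (A i).N.cover ((A i).j y)
  obtain ⟨h1, h2⟩ := (A i).h.ind y hi e h
  obtain ⟨h3, h4⟩ := K2.ind (A i).h.gh.st G.st ((A i).h.cont hi) h h1 h2
    (.of_forall (K1.of_isom (G.iso i) (G.emb i).continuous)) (e' := e') (by rwa [hj i y hi])
  have k : (fun z => co e' (j z)) =ᶠ[𝓝 y] fun z => co e' (κ i ((A i).j z)) :=
    (near hj hi).mono fun z hz => congrArg (co e') hz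
  exact ⟨h3.congr_of_eventuallyEq k, ind_congr h4 k⟩

omit G hj hc in
theorem gl2 (Z : L0) (T : L3) (hC : CAU) : GL2 := fun d hd ι A N κ G hc => by
  obtain ⟨j, hj⟩ := ex_j T.base hd G hc
  refine ⟨j, ⟨G.st.sp, conn G hj hc Z.l2 hd, G.sc, G.st.vac, emb G hj hc, ?_, fun y hy => ?_⟩, hj⟩
  · rw [img hj hc]
    exact (hC d hd ι A N κ G).cauchy
  · obtain ⟨e, he⟩ := N.cover (j y)
    obtain ⟨h1, Γ, n, h2⟩ := ind G hj hc Z.k1 Z.k2 hy he
    exact ⟨e, _, Γ, n, rfl, he, h1, h2⟩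

end Vale.Agent.P354CB34
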